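import Vale.Agent.P235.R2.H582.KprSpec

/-!
P235-M (helper767).  Random retractions with connected fibres onto any vertex set, from random
partitions (backward induction over the scales).
-/

set_option autoImplicit false
set_option linter.all false

namespace Vale.Agent.P235.ST.H767

open Finset Vale.Agent.P235

open Classical in
/-- the class of `v` -/
def cl {V : Type} (G : SimpleGraph V) (f : V → Option V) (c : V → V) (v : V) : Set V :=
  {u | ∃ p : G.Walk v u, ∀ z ∈ p.support, f z = none ∧ c z = c v}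

/-- possible value of a class -/
def Pv {V : Type} (G : SimpleGraph V) (ℓ : Sym2 V → ℝ) (D : ℝ) (f : V → Option V) (K : Set V)
    (z : V) : Prop := ∃ u ∈ K, ∃ y, G.Adj u y ∧ ℓ s(u, y) ≤ D ∧ f y = some z

open Classical in
/-- the value given to a class -/
noncomputable def pk {V : Type} (G : SimpleGraph V) (ℓ : Sym2 V → ℝ) (D : ℝ) (f : V → Option V)
    (K : Set V) : Option V :=
  if h : ∃ z, Pv G ℓ D f K z then some h.choose else none

open Classical in
/-- one stage -/
noncomputable def stp {V : Type} (G : SimpleGraph V) (ℓ : Sym2 V → ℝ) (D : ℝ) (c : V → V)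
    (f : V → Option V) (v : V) : Option V :=
  if f v = none then pk G ℓ D f (cl G f c v) else f v

section step
variable {V : Type} {G : SimpleGraph V} {ℓ : Sym2 V → ℝ} {D : ℝ} {c : V → V} {f : V → Option V}

theorem cl_self {v : V} (h : f v = none) : v ∈ cl G f c v :=
  ⟨SimpleGraph.Walk.nil, by
    intro z hz
    rw [SimpleGraph.Walk.support_nil, List.mem_singleton] at hz
    rw [hz]; exact ⟨h, rfl⟩⟩

theorem cl_none {v u : V} (h : u ∈ cl G f c v) : f u = none ∧ c u = c v := by
  obtain ⟨p, hp⟩ := h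
  exact hp u p.end_mem_support

theorem cl_symm {v u : V} (h : u ∈ cl G f c v) : v ∈ cl G f c u := by
  have h' := (cl_none h).2
  obtain ⟨p, hp⟩ := h
  refine ⟨p.reverse, fun z hz => ?_⟩
  rw [SimpleGraph.Walk.support_reverse, List.mem_reverse] at hz
  exact ⟨(hp z hz).1, by rw [(hp z hz).2, h']⟩

theorem cl_sub {v u : V} (h : u ∈ cl G f c v) : cl G f c u ⊆ cl G f c v := by
  have h' := (cl_none h).2
  obtain ⟨p, hp⟩ := h
  rintro z ⟨q, hq⟩
  refine ⟨p.append q, fun x hx => ?_⟩
  rw [SimpleGraph.Walk.mem_support_append_iff] at hx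
  rcases hx with hx | hx
  · exact hp x hx
  · exact ⟨(hq x hx).1, by rw [(hq x hx).2, h']⟩

theorem cl_eq {v u : V} (h : u ∈ cl G f c v) : cl G f c u = cl G f c v :=
  Set.Subset.antisymm (cl_sub h) (cl_sub (cl_symm h))

theorem cl_adj {v u : V} (huv : G.Adj v u) (hv : f v = none) (hu : f u = none) (h : c u = c v) :
    u ∈ cl G f c v := by
  refine ⟨huv.toWalk, fun z hz => ?_⟩
  have : z = v ∨ z = u := by
    simpa using hz
  rcases this with rfl | rfl
  · exact ⟨hv, rfl⟩
  · exact ⟨hu, h⟩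

theorem stp_keep {v y : V} (h : f v = some y) : stp G ℓ D c f v = some y := by
  unfold stp
  rw [if_neg (by rw [h]; simp), h]

theorem stp_none {v : V} (h : f v = none) : stp G ℓ D c f v = pk G ℓ D f (cl G f c v) := by
  unfold stp
  rw [if_pos h]

theorem pk_some {K : Set V} {z : V} (h : pk G ℓ D f K = some z) : Pv G ℓ D f K z := by
  unfold pk at h
  split_ifs at h with h1
  obtain rfl := Option.some.inj h
  exact h1.choose_spec

theorem pk_ne {K : Set V} {z : V} (h : Pv G ℓ D f K z) : pk G ℓ D f K ≠ none := by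
  unfold pk
  rw [dif_pos ⟨z, h⟩]
  simp

theorem stp_cl {v u : V} (h : u ∈ cl G f c v) : stp G ℓ D c f u = stp G ℓ D c f v := by
  have h1 := (cl_none h).1
  have h2 := (cl_none (cl_symm h)).1
  rw [stp_none h1, stp_none h2, cl_eq h]

theorem stp_adj {v u : V} (huv : G.Adj v u) (hv : f v = none) (hu : f u = none)
    (h : c u = c v) : stp G ℓ D c f u = stp G ℓ D c f v := stp_cl (cl_adj huv hv hu h)

theorem stp_ne {v u : V} (huv : G.Adj v u) (hv : f v = none) (hu : f u ≠ none)
    (hl : ℓ s(v, u) ≤ D) : stp G ℓ D c f v ≠ none := by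
  obtain ⟨z, hz⟩ := Option.ne_none_iff_exists'.1 hu
  rw [stp_none hv]
  exact pk_ne (z := z) ⟨v, cl_self hv, u, huv, hl, hz⟩

/-- the invariants of a state -/
structure Inv (G : SimpleGraph V) (ℓ : Sym2 V → ℝ) (X : Set V) (D : ℝ) (f : V → Option V) :
    Prop where
  onX : ∀ x ∈ X, f x = some x
  mem : ∀ v y, f v = some y → y ∈ X
  walk : ∀ v y, f v = some y → ∃ q : G.Walk v y, ∀ z ∈ q.support, f z = some y
  dist : ∀ v y, f v = some y → pathDist G ℓ v y ≤ 2 * D

open Classical in
theorem stp_inv [Finite V] {X : Set V} (hc : G.Connected) (hℓ : ∀ e ∈ G.edgeSet, 0 < ℓ e)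
    (h : Inv G ℓ X D f) (hD : 0 < D)
    (hcut : ∀ u v, u ∉ X → v ∉ X → ReachOff G X u v → c u = c v → pathDist G ℓ u v ≤ D) :
    Inv G ℓ X (2 * D) (stp G ℓ D c f) := by
  have hd := pathDist_isMet hc hℓ
  have hX : ∀ z, f z = none → z ∉ X := fun z hz hx => by
    rw [h.onX z hx] at hz; exact absurd hz (by simp)
  have key : ∀ v y, f v = none → stp G ℓ D c f v = some y →
      ∃ u ∈ cl G f c v, ∃ t, G.Adj u t ∧ ℓ s(u, t) ≤ D ∧ f t = some y := by
    intro v y hv hy
    rw [stp_none hv] at hy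
    exact pk_some hy
  constructor
  · intro x hx
    exact stp_keep (h.onX x hx)
  · intro v y hy
    cases hv : f v with
    | some y' =>
      rw [stp_keep hv] at hy
      obtain rfl := Option.some.inj hy
      exact h.mem v _ hv
    | none =>
      obtain ⟨u, hu, t, hut, hl, ht⟩ := key v y hv hy
      exact h.mem t y ht
  · intro v y hy
    cases hv : f v with
    | some y' =>
      rw [stp_keep hv] at hy
      obtain rfl := Option.some.inj hy
      obtain ⟨q, hq⟩ := h.walk v _ hv
      exact ⟨q, fun z hz => stp_keep (hq z hz)⟩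
    | none =>
      obtain ⟨u, hu, t, hut, hl, ht⟩ := key v y hv hy
      obtain ⟨q, hq⟩ := h.walk t y ht
      have hu' := hu
      obtain ⟨p, hp⟩ := hu
      refine ⟨p.append (SimpleGraph.Walk.cons hut q), fun z hz => ?_⟩
      rw [SimpleGraph.Walk.mem_support_append_iff] at hz
      have hzc : z ∈ p.support → stp G ℓ D c f z = some y := by
        intro hz
        have : z ∈ cl G f c v := by
          refine ⟨p.takeUntil z hz, fun x hx => hp x ?_⟩
          exact SimpleGraph.Walk.support_takeUntil_subset p hz hx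
        rw [stp_cl this, hy]
      rcases hz with hz | hz
      · exact hzc hz
      · rw [SimpleGraph.Walk.support_cons, List.mem_cons] at hz
        rcases hz with rfl | hz
        · rw [stp_cl hu', hy]
        · exact stp_keep (hq z hz)
  · intro v y hy
    cases hv : f v with
    | some y' =>
      rw [stp_keep hv] at hy
      obtain rfl := Option.some.inj hy
      have := h.dist v _ hv
      linarith
    | none =>
      obtain ⟨u, hu, t, hut, hl, ht⟩ := key v y hv hy
      have h1 := h.dist t y ht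
      have h2 := pathDist_adj hℓ hut
      have h3 : pathDist G ℓ v u ≤ D := by
        have hu' := cl_none hu
        obtain ⟨p, hp⟩ := hu
        exact hcut v u (hX v hv) (hX u hu'.1) ⟨p, fun a ha => hX a (hp a ha).1⟩ hu'.2.symm
      have h4 := hd.tri v u y
      have h5 := hd.tri u t y
      linarith

end step

theorem ncard_empty' {Ω : Type} {S : Set Ω} (h : ∀ ω, ω ∉ S) : S.ncard = 0 := by
  rw [Set.eq_empty_of_forall_notMem h, Set.ncard_empty]

theorem ncard_le_card {Ω : Type} [Fintype Ω] (S : Set Ω) : (S.ncard : ℝ) ≤ Fintype.card Ω := by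
  have h := Set.ncard_le_ncard (Set.subset_univ S) (Set.toFinite _)
  rw [Set.ncard_univ, Nat.card_eq_fintype_card] at h
  exact_mod_cast h

theorem bad {V : Type} [Finite V] {G : SimpleGraph V} {ℓ : Sym2 V → ℝ} {D b : ℝ} {X : Set V}
    {f : V → Option V} {Ω : Type} [Fintype Ω] {c : Ω → V → V}
    (hℓ : ∀ e ∈ G.edgeSet, 0 < ℓ e) (hD : 0 < D) (hb : 1 ≤ b)
    (h1 : ∀ u v, u ∉ X → v ∉ X → G.Adj u v →
      ({ω | c ω u ≠ c ω v}.ncard : ℝ) ≤ b * ℓ s(u, v) / D * Fintype.card Ω)
    (hX : ∀ z, f z = none → z ∉ X) {v y : V} (p : G.Walk v y) (hy : f y ≠ none) :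
    ({ω | stp G ℓ D (c ω) f v = none}.ncard : ℝ) ≤
      b * (p.edges.map ℓ).sum / D * Fintype.card Ω := by
  have hfin : ∀ S : Set Ω, S.Finite := fun S => Set.toFinite S
  have hN : (0 : ℝ) ≤ Fintype.card Ω := Nat.cast_nonneg _
  induction p with
  | nil =>
    obtain ⟨z, hz⟩ := Option.ne_none_iff_exists'.1 hy
    rw [ncard_empty' (S := {ω | stp G ℓ D (c ω) f _ = none}) (by
      intro ω hω
      have hω : stp G ℓ D (c ω) f _ = none := hω
      rw [stp_keep hz] at hω
      exact absurd hω (by simp))]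
    simp
  | @cons v w y h q ih =>
    have hl := hℓ _ ((SimpleGraph.mem_edgeSet G).2 h)
    have hq : 0 ≤ (q.edges.map ℓ).sum := walk_nonneg hℓ q
    rw [SimpleGraph.Walk.edges_cons, List.map_cons, List.sum_cons]
    have hq' : 0 ≤ b * (q.edges.map ℓ).sum / D * Fintype.card Ω := by positivity
    have hl' : 0 ≤ b * ℓ s(v, w) / D * Fintype.card Ω := by positivity
    have e : b * (ℓ s(v, w) + (q.edges.map ℓ).sum) / D * (Fintype.card Ω : ℝ) =
        b * ℓ s(v, w) / D * Fintype.card Ω + b * (q.edges.map ℓ).sum / D * Fintype.card Ω := by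
      ring
    rw [e]
    by_cases hv : f v = none
    · by_cases hw : f w = none
      · have hsub : {ω | stp G ℓ D (c ω) f v = none} ⊆
            {ω | c ω v ≠ c ω w} ∪ {ω | stp G ℓ D (c ω) f w = none} := by
          intro ω hω
          by_cases hcw : c ω v = c ω w
          · right
            show stp G ℓ D (c ω) f w = none
            rw [stp_adj h hv hw hcw.symm]
            exact hω
          · exact Or.inl hcw
        have h2 := Set.ncard_le_ncard hsub (hfin _)
        have h3 := Set.ncard_union_le {ω | c ω v ≠ c ω w} {ω | stp G ℓ D (c ω) f w = none}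
        have h4 : ({ω | stp G ℓ D (c ω) f v = none}.ncard : ℝ) ≤
            ({ω | c ω v ≠ c ω w}.ncard : ℝ) + ({ω | stp G ℓ D (c ω) f w = none}.ncard : ℝ) := by
          exact_mod_cast h2.trans h3
        have h5 := h1 v w (hX v hv) (hX w hw) h
        have h6 := ih hy
        linarith
      · by_cases hlD : ℓ s(v, w) ≤ D
        · rw [ncard_empty' (S := {ω | stp G ℓ D (c ω) f v = none})
            (fun ω hω => stp_ne h hv hw hlD hω)]
          rw [Nat.cast_zero]
          linarith
        · have h7 : (1 : ℝ) ≤ b * ℓ s(v, w) / D := by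
            rw [le_div_iff₀ hD, one_mul]
            nlinarith [not_le.1 hlD]
          have h8 := ncard_le_card {ω | stp G ℓ D (c ω) f v = none}
          nlinarith
    · obtain ⟨z, hz⟩ := Option.ne_none_iff_exists'.1 hv
      rw [ncard_empty' (S := {ω | stp G ℓ D (c ω) f v = none}) (by
        intro ω hω
        have hω : stp G ℓ D (c ω) f v = none := hω
        rw [stp_keep hz] at hω
        exact absurd hω (by simp))]
      rw [Nat.cast_zero]
      linarith

theorem all_asg {V : Type} {G : SimpleGraph V} {ℓ : Sym2 V → ℝ} {D : ℝ}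
    {f : V → Option V} {c : V → V} (hcc : ∀ u v, c u = c v)
    (hM' : ∀ u v, G.Adj u v → ℓ s(u, v) ≤ D)
    {v y : V} (p : G.Walk v y) (hy : f y ≠ none) : stp G ℓ D c f v ≠ none := by
  induction p with
  | nil =>
    obtain ⟨z, hz⟩ := Option.ne_none_iff_exists'.1 hy
    rw [stp_keep hz]; simp
  | @cons v w y h q ih =>
    by_cases hv : f v = none
    · by_cases hw : f w = none
      · rw [← stp_adj h hv hw (hcc _ _)]
        exact ih hy
      · exact stp_ne h hv hw (hM' _ _ h)
    · obtain ⟨z, hz⟩ := Option.ne_none_iff_exists'.1 hv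
      rw [stp_keep hz]; simp

open Classical in
theorem avg2 {Ω : Type} [Fintype Ω] [Nonempty Ω] (T : Ω → ℝ) (S1 S2 : Set Ω) (α β1 β2 : ℝ)
    (h : ∀ ω, T ω ≤ α + (if ω ∈ S1 then β1 else 0) + (if ω ∈ S2 then β2 else 0)) :
    ∑ ω, (1 / (Fintype.card Ω : ℝ)) * T ω ≤
      α + (S1.ncard / Fintype.card Ω : ℝ) * β1 + (S2.ncard / Fintype.card Ω : ℝ) * β2 := by
  have hN : (0 : ℝ) < Fintype.card Ω := by exact_mod_cast Fintype.card_pos
  have hc : ∀ (S : Set Ω) (β : ℝ), ∑ ω : Ω, (if ω ∈ S then β else 0) = S.ncard * β := by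
    intro S β
    rw [← Finset.sum_filter, Finset.sum_const, nsmul_eq_mul, Set.ncard_eq_toFinset_card' S]
    congr 3
    ext ω
    simp
  rw [← Finset.mul_sum]
  have h1 : ∑ ω, T ω ≤ ∑ ω : Ω, (α + (if ω ∈ S1 then β1 else 0) + (if ω ∈ S2 then β2 else 0)) :=
    Finset.sum_le_sum fun ω _ => h ω
  rw [Finset.sum_add_distrib, Finset.sum_add_distrib, hc, hc, Finset.sum_const, nsmul_eq_mul,
    Finset.card_univ] at h1
  calc (1 / (Fintype.card Ω : ℝ)) * ∑ ω, T ω
      ≤ (1 / (Fintype.card Ω : ℝ)) * (Fintype.card Ω * α + S1.ncard * β1 + S2.ncard * β2) :=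
        mul_le_mul_of_nonneg_left h1 (by positivity)
    _ = _ := by field_simp

/-- the two bounds -/
noncomputable def B1 (b D A : ℝ) : ℝ := 8 * max D (4 * (b * A)) + 32 * (b * A)

noncomputable def B2 (b D A l : ℝ) : ℝ := 48 * b ^ 2 * l + 256 * b ^ 2 * A * l / max D (A / 8)

theorem num1 {b D A p : ℝ} (hb : 1 ≤ b) (hD : 0 < D) (hA : 0 ≤ A) (hp : 0 ≤ p) (hp1 : p ≤ 1)
    (hpD : p * D ≤ b * A) (h2 : 2 * (b * A) ≤ D) : 4 * D + p * B1 b (2 * D) A ≤ B1 b D A := by
  have ha : 0 ≤ b * A := by positivity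
  unfold B1
  have e1 : max (2 * D) (4 * (b * A)) = 2 * D := max_eq_left (by linarith)
  rw [e1]
  have h3 := le_max_left D (4 * (b * A))
  have h4 := le_max_right D (4 * (b * A))
  nlinarith

theorem num1' {b D A : ℝ} (hb : 1 ≤ b) (hD : 0 < D) (hA : 0 ≤ A)
    (h2 : D ≤ 2 * (b * A)) : B1 b (2 * D) A ≤ B1 b D A ∧ 4 * D ≤ B1 b D A := by
  have ha : 0 ≤ b * A := by positivity
  unfold B1
  have e1 : max (2 * D) (4 * (b * A)) = 4 * (b * A) := max_eq_right (by linarith)
  have e2 : max D (4 * (b * A)) = 4 * (b * A) := max_eq_right (by linarith)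
  rw [e1, e2]
  constructor <;> linarith

theorem B1_mono {b D A A' : ℝ} (hb : 1 ≤ b) (h : A ≤ A') : B1 b D A ≤ B1 b D A' := by
  unfold B1
  have h1 : b * A ≤ b * A' := mul_le_mul_of_nonneg_left h (by linarith)
  have h2 : max D (4 * (b * A)) ≤ max D (4 * (b * A')) := max_le_max le_rfl (by linarith)
  linarith

theorem B1_ge {b D A : ℝ} (hb : 1 ≤ b) (hD : 0 < D) (hA : 0 ≤ A) : 8 * D ≤ B1 b D A := by
  unfold B1
  have ha : 0 ≤ b * A := by positivity
  have h3 := le_max_left D (4 * (b * A))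
  linarith

theorem B2_nonneg {b D A l : ℝ} (hb : 1 ≤ b) (hD : 0 < D) (hA : 0 ≤ A) (hl : 0 ≤ l) :
    0 ≤ B2 b D A l := by
  unfold B2
  have := lt_of_lt_of_le hD (le_max_left D (A / 8))
  positivity

theorem B2_mono {b D A l : ℝ} (hb : 1 ≤ b) (hD : 0 < D) (hA : 0 ≤ A) (hl : 0 ≤ l) :
    B2 b (2 * D) A l ≤ B2 b D A l := by
  unfold B2
  have h1 := lt_of_lt_of_le hD (le_max_left D (A / 8))
  have h2 : max D (A / 8) ≤ max (2 * D) (A / 8) := max_le_max (by linarith) le_rfl
  have h3 : 256 * b ^ 2 * A * l / max (2 * D) (A / 8) ≤ 256 * b ^ 2 * A * l / max D (A / 8) :=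
    div_le_div_of_nonneg_left (by positivity) h1 h2
  linarith

theorem num2 {b D A l p q : ℝ} (hb : 1 ≤ b) (hD : 0 < D) (hA : 0 ≤ A) (hl : 0 ≤ l)
    (hAD : A ≤ 8 * D) (hlD : l ≤ 4 * D) (hp : 0 ≤ p) (hp1 : p ≤ 1) (hpD : p * D ≤ b * A)
    (hq : 0 ≤ q) (hqD : q * D ≤ b * l) :
    q * (4 * D + l + B1 b (2 * D) A) + p * B2 b (2 * D) A l ≤ B2 b D A l := by
  have ha : 0 ≤ b * A := by positivity
  have e1 : max D (A / 8) = D := max_eq_left (by linarith)
  have e2 : max (2 * D) (A / 8) = 2 * D := max_eq_left (by linarith)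
  have h1 : B1 b (2 * D) A ≤ 16 * D + 64 * (b * A) := by
    unfold B1
    have : max (2 * D) (4 * (b * A)) ≤ 2 * D + 4 * (b * A) := max_le (by linarith) (by linarith)
    linarith
  obtain ⟨t, ht⟩ : ∃ t, t = b * A / D := ⟨_, rfl⟩
  have ht0 : 0 ≤ t := by rw [ht]; positivity
  have htD : t * D = b * A := by rw [ht]; field_simp
  have hpt : p ≤ t := by
    rw [ht, le_div_iff₀ hD]; exact hpD
  have hqt : q ≤ b * l / D := by
    rw [le_div_iff₀ hD]; exact hqD
  unfold B2
  rw [e1, e2]
  have e3 : 256 * b ^ 2 * A * l / D = 256 * b * l * t := by rw [ht]; ring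
  have e4 : 256 * b ^ 2 * A * l / (2 * D) = 128 * b * l * t := by
    rw [ht]; field_simp; ring
  rw [e3, e4]
  have hbl : 0 ≤ b * l := by positivity
  have h2 : q * (4 * D + l + B1 b (2 * D) A) ≤ 24 * (b * l) + 64 * (b * l) * t := by
    have h3 : 4 * D + l + B1 b (2 * D) A ≤ D * (24 + 64 * t) := by
      rw [← htD] at h1
      nlinarith
    have h4 : 0 ≤ 24 + 64 * t := by positivity
    calc q * (4 * D + l + B1 b (2 * D) A) ≤ q * (D * (24 + 64 * t)) :=
          mul_le_mul_of_nonneg_left h3 hq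
      _ = (q * D) * (24 + 64 * t) := by ring
      _ ≤ (b * l) * (24 + 64 * t) := mul_le_mul_of_nonneg_right hqD h4
      _ = _ := by ring
  have hb2 : b * l ≤ b ^ 2 * l := by nlinarith
  rcases le_total t (1 / 2) with h5 | h5
  · have h6 : p * (48 * b ^ 2 * l + 128 * b * l * t) ≤ 1 / 2 * (48 * b ^ 2 * l + 128 * b * l * t) :=
      mul_le_mul_of_nonneg_right (hpt.trans h5) (by positivity)
    have h7 : 0 ≤ (b * l) * t := by positivity
    nlinarith
  · have h6 : p * (48 * b ^ 2 * l + 128 * b * l * t) ≤ 1 * (48 * b ^ 2 * l + 128 * b * l * t) :=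
      mul_le_mul_of_nonneg_right hp1 (by positivity)
    have h7 : (b * l) * (1 / 2) ≤ (b * l) * t := mul_le_mul_of_nonneg_left h5 hbl
    nlinarith

end Vale.Agent.P235.ST.H767
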