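import Vale.Agent.P235.ST.H767.Retr

/-!
P235-M (helper767).  Random retractions with connected fibres: the induction over the scales.
-/

set_option autoImplicit false
set_option linter.all false

namespace Vale.Agent.P235.ST.H767

open Finset Vale.Agent.P235

/-- a family of retractions which extend `f` -/
def Fam {V : Type} (G : SimpleGraph V) (ℓ : Sym2 V → ℝ) (X : Set V) (A : V → ℝ) (b D : ℝ)
    (f : V → Option V) : Prop :=
  ∃ (ι : Type) (_ : Fintype ι) (w : ι → ℝ) (π : ι → V → V),
    (∀ i, 0 ≤ w i) ∧ ∑ i, w i = 1 ∧ (∀ i v, π i v ∈ X) ∧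
    (∀ i v y, f v = some y → π i v = y) ∧
    (∀ i v, ∃ q : G.Walk v (π i v), ∀ z ∈ q.support, π i z = π i v) ∧
    (∀ v, f v = none → ∑ i, w i * pathDist G ℓ v (π i v) ≤ B1 b D (A v)) ∧
    (∀ u v, G.Adj u v → f u = none → f v = none → ℓ s(u, v) ≤ A u → ℓ s(u, v) ≤ A v →
      ∑ i, w i * pathDist G ℓ (π i u) (π i v) ≤ B2 b D (max (A u) (A v)) (ℓ s(u, v)))

theorem fam_base {V : Type} [Finite V] {G : SimpleGraph V} {ℓ : Sym2 V → ℝ} {X : Set V}
    {b D : ℝ} {f : V → Option V} {ν : V → V} (hc : G.Connected)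
    (hℓ : ∀ e ∈ G.edgeSet, 0 < ℓ e) (hν : Near G ℓ X ν) (hb : 1 ≤ b) (hD : 0 < D)
    (hM : ∀ u v, pathDist G ℓ u v ≤ D) (hM' : ∀ u v, G.Adj u v → ℓ s(u, v) ≤ D)
    (hf : Inv G ℓ X D f) : Fam G ℓ X (fun v => pathDist G ℓ v (ν v)) b D f := by
  have hd := pathDist_isMet hc hℓ
  have hVne : Nonempty V := hc.nonempty
  obtain ⟨v0⟩ := hVne
  have hA : ∀ v, 0 ≤ pathDist G ℓ v (ν v) := fun v => pathDist_nonneg hℓ _ _
  have hI := stp_inv (c := fun _ => v0) hc hℓ hf hD (fun u v _ _ _ _ => hM u v)
  have hall : ∀ v, ∃ y, stp G ℓ D (fun _ => v0) f v = some y := by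
    intro v
    obtain ⟨p⟩ := hc v (ν v)
    exact Option.ne_none_iff_exists'.1 (all_asg (c := fun _ => v0) (fun _ _ => rfl) hM' p
      (by rw [hf.onX _ (hν.mem v)]; simp))
  choose π hπ using hall
  refine ⟨Unit, inferInstance, fun _ => 1, fun _ => π, fun _ => zero_le_one, by simp,
    fun _ v => hI.mem v _ (hπ v), ?_, ?_, ?_, ?_⟩
  · intro _ v y hy
    have h1 := hπ v
    rw [stp_keep hy] at h1
    exact (Option.some.inj h1).symm
  · intro _ v
    obtain ⟨q, hq⟩ := hI.walk v _ (hπ v)
    refine ⟨q, fun z hz => ?_⟩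
    have h1 := hq z hz
    rw [hπ z] at h1
    exact Option.some.inj h1
  · intro v hv
    have h1 := hI.dist v _ (hπ v)
    have h2 := B1_ge hb hD (hA v)
    simp only [Finset.univ_unique, Finset.sum_singleton, one_mul]
    linarith
  · intro u v huv hu hv _ _
    have h1 : π v = π u := by
      have h2 := stp_adj (G := G) (ℓ := ℓ) (D := D) (c := fun _ => v0) huv hu hv rfl
      rw [hπ u, hπ v] at h2
      exact Option.some.inj h2
    simp only [Finset.univ_unique, Finset.sum_singleton, one_mul]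
    rw [h1, hd.self]
    exact B2_nonneg hb hD ((hA u).trans (le_max_left _ _)) (hℓ _ ((SimpleGraph.mem_edgeSet G).2 huv)).le

/-- cuts at scale `D` -/
def Cut {V : Type} (G : SimpleGraph V) (ℓ : Sym2 V → ℝ) (X : Set V) (b D : ℝ) : Prop :=
  ∃ (Ω : Type) (_ : Fintype Ω) (_ : Nonempty Ω) (c : Ω → V → V),
    (∀ ω u v, u ∉ X → v ∉ X → ReachOff G X u v → c ω u = c ω v → pathDist G ℓ u v ≤ D) ∧
    ∀ u v, u ∉ X → v ∉ X → G.Adj u v →
      (({ω | c ω u ≠ c ω v}.ncard : ℕ) : ℝ) ≤ b * ℓ s(u, v) / D * Fintype.card Ω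

open Classical in
theorem fam_step {V : Type} [Finite V] {G : SimpleGraph V} {ℓ : Sym2 V → ℝ} {X : Set V}
    {b D : ℝ} {f : V → Option V} {ν : V → V} (hc : G.Connected)
    (hℓ : ∀ e ∈ G.edgeSet, 0 < ℓ e) (hν : Near G ℓ X ν) (hb : 1 ≤ b) (hD : 0 < D)
    (hcut : Cut G ℓ X b D)
    (hnext : ∀ f', Inv G ℓ X (2 * D) f' → Fam G ℓ X (fun v => pathDist G ℓ v (ν v)) b (2 * D) f')
    (hf : Inv G ℓ X D f) : Fam G ℓ X (fun v => pathDist G ℓ v (ν v)) b D f := by
  have hd := pathDist_isMet hc hℓ
  set A : V → ℝ := fun v => pathDist G ℓ v (ν v) with hAdef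
  have hA : ∀ v, 0 ≤ A v := fun v => pathDist_nonneg hℓ _ _
  have hX : ∀ z, f z = none → z ∉ X := fun z hz hx => by
    rw [hf.onX z hx] at hz; exact absurd hz (by simp)
  obtain ⟨Ω, hΩ, hΩn, c, hc1, hc2⟩ := hcut
  have hN : (0 : ℝ) < Fintype.card Ω := by exact_mod_cast Fintype.card_pos
  have hI : ∀ ω, Inv G ℓ X (2 * D) (stp G ℓ D (c ω) f) := fun ω =>
    stp_inv hc hℓ hf hD (hc1 ω)
  choose ι hι w π h1 h2 h3 h4 h5 h6 h7 using fun ω => hnext _ (hI ω)
  -- probability of being unassigned
  have hbad : ∀ v, (({ω | stp G ℓ D (c ω) f v = none}.ncard : ℝ) / Fintype.card Ω) * D ≤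
      b * A v := by
    intro v
    have hne : Nonempty (G.Walk v (ν v)) := hc v (ν v)
    have h8 : (({ω | stp G ℓ D (c ω) f v = none}.ncard : ℝ) / Fintype.card Ω) * D / b ≤ A v := by
      refine le_ciInf fun p => ?_
      have h9 := bad hℓ hD hb hc2 hX p (by rw [hf.onX _ (hν.mem v)]; simp)
      rw [div_le_iff₀ (by linarith), div_mul_eq_mul_div, div_le_iff₀ hN]
      have h10 : ({ω | stp G ℓ D (c ω) f v = none}.ncard : ℝ) * D ≤
          b * (p.edges.map ℓ).sum / D * Fintype.card Ω * D :=
        mul_le_mul_of_nonneg_right h9 hD.le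
      refine h10.trans (le_of_eq ?_)
      field_simp
    rw [div_le_iff₀ (by linarith)] at h8
    linarith
  have hp0 : ∀ S : Set Ω, 0 ≤ (S.ncard : ℝ) / Fintype.card Ω := fun S => by positivity
  have hp1 : ∀ S : Set Ω, (S.ncard : ℝ) / Fintype.card Ω ≤ 1 := fun S => by
    rw [div_le_one hN]; exact ncard_le_card S
  -- sums over the big index set
  have hsum : ∀ F : ∀ ω, ι ω → ℝ, ∑ x : (Σ ω, ι ω), (1 / (Fintype.card Ω : ℝ)) * w x.1 x.2 *
      F x.1 x.2 = ∑ ω, (1 / (Fintype.card Ω : ℝ)) * ∑ i, w ω i * F ω i := by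
    intro F
    rw [Fintype.sum_sigma]
    refine Finset.sum_congr rfl fun ω _ => ?_
    rw [Finset.mul_sum]
    refine Finset.sum_congr rfl fun i _ => ?_
    ring
  -- distances for one ω
  have hdv : ∀ ω v y, stp G ℓ D (c ω) f v = some y → ∑ i, w ω i * pathDist G ℓ v (π ω i v) ≤ 4 * D := by
    intro ω v y hy
    have e : ∀ i, w ω i * pathDist G ℓ v (π ω i v) = w ω i * pathDist G ℓ v y := fun i => by
      rw [h4 ω i v y hy]
    rw [Finset.sum_congr rfl fun i _ => e i, ← Finset.sum_mul, h2 ω, one_mul]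
    have := (hI ω).dist v y hy
    linarith
  have hdv0 : ∀ ω v, 0 ≤ ∑ i, w ω i * pathDist G ℓ v (π ω i v) := fun ω v =>
    Finset.sum_nonneg fun i _ => mul_nonneg (h1 ω i) (pathDist_nonneg hℓ _ _)
  refine ⟨Σ ω, ι ω, inferInstance, fun x => (1 / (Fintype.card Ω : ℝ)) * w x.1 x.2,
    fun x => π x.1 x.2, ?_, ?_, fun x v => h3 x.1 x.2 v, ?_, fun x v => h5 x.1 x.2 v, ?_, ?_⟩
  · intro x
    have := h1 x.1 x.2
    positivity
  · have h8 := hsum (fun _ _ => 1)
    simp only [mul_one] at h8
    rw [h8]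
    simp only [h2, mul_one]
    rw [Finset.sum_const, Finset.card_univ, nsmul_eq_mul]
    field_simp
  · intro x v y hy
    exact h4 x.1 x.2 v y (stp_keep hy)
  · intro v hv
    rw [hsum fun ω i => pathDist G ℓ v (π ω i v)]
    rcases le_total D (2 * (b * A v)) with hcase | hcase
    · obtain ⟨n1, n2⟩ := num1' hb hD (hA v) hcase
      have h8 := avg2 (fun ω => ∑ i, w ω i * pathDist G ℓ v (π ω i v)) ∅ ∅ (B1 b D (A v)) 0 0 (by
        intro ω
        simp only [Set.mem_empty_iff_false, if_false, add_zero]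
        cases hs : stp G ℓ D (c ω) f v with
        | none => exact (h6 ω v hs).trans n1
        | some y => exact (hdv ω v y hs).trans n2)
      simpa using h8
    · have hB : 0 ≤ B1 b (2 * D) (A v) := by
        have := B1_ge (A := A v) hb (show 0 < 2 * D by linarith) (hA v)
        linarith
      have h8 := avg2 (fun ω => ∑ i, w ω i * pathDist G ℓ v (π ω i v))
        {ω | stp G ℓ D (c ω) f v = none} ∅ (4 * D) (B1 b (2 * D) (A v)) 0 (by
        intro ω
        simp only [Set.mem_empty_iff_false, if_false, add_zero, Set.mem_setOf_eq]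
        cases hs : stp G ℓ D (c ω) f v with
        | none =>
          rw [if_pos rfl]
          have := h6 ω v hs
          linarith
        | some y =>
          rw [if_neg (show ¬ (some y = (none : Option V)) by simp)]
          have := hdv ω v y hs
          linarith)
      have h9 := num1 hb hD (hA v) (hp0 {ω | stp G ℓ D (c ω) f v = none}) (hp1 _) (hbad v) hcase
      simp only [Set.ncard_empty, Nat.cast_zero, zero_div, zero_mul, add_zero] at h8
      exact h8.trans h9
  · intro u v huv hu hv hlu hlv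
    rw [hsum fun ω i => pathDist G ℓ (π ω i u) (π ω i v)]
    have hl := (hℓ _ ((SimpleGraph.mem_edgeSet G).2 huv)).le
    have hAm : 0 ≤ max (A u) (A v) := (hA u).trans (le_max_left _ _)
    have hB2 : 0 ≤ B2 b (2 * D) (max (A u) (A v)) (ℓ s(u, v)) :=
      B2_nonneg hb (by linarith) hAm hl
    have hB1 : 0 ≤ B1 b (2 * D) (max (A u) (A v)) := by
      have := B1_ge hb (show 0 < 2 * D by linarith) hAm
      linarith
    have hluv : |A u - A v| ≤ ℓ s(u, v) := by
      have g1 := hν.lip hc hℓ u v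
      have g2 := hν.lip hc hℓ v u
      have g3 := pathDist_adj hℓ huv
      rw [hd.symm v u] at g2
      rw [abs_le]
      constructor
      · show -ℓ s(u, v) ≤ pathDist G ℓ u (ν u) - pathDist G ℓ v (ν v)
        linarith
      · show pathDist G ℓ u (ν u) - pathDist G ℓ v (ν v) ≤ ℓ s(u, v)
        linarith
    -- one ω: the triangle inequality
    have htri : ∀ ω, ∑ i, w ω i * pathDist G ℓ (π ω i u) (π ω i v) ≤
        ∑ i, w ω i * pathDist G ℓ u (π ω i u) + ℓ s(u, v) +
          ∑ i, w ω i * pathDist G ℓ v (π ω i v) := by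
      intro ω
      have e : ℓ s(u, v) = ∑ i, w ω i * ℓ s(u, v) := by
        rw [← Finset.sum_mul, h2 ω, one_mul]
      rw [e, ← Finset.sum_add_distrib, ← Finset.sum_add_distrib]
      refine Finset.sum_le_sum fun i _ => ?_
      have g1 := hd.tri (π ω i u) u (π ω i v)
      have g2 := hd.tri u v (π ω i v)
      have g3 := pathDist_adj hℓ huv
      rw [hd.symm (π ω i u) u] at g1
      have g4 := h1 ω i
      nlinarith
    by_cases hm : 4 * D < min (A u) (A v)
    · -- nobody is assigned
      have hnone : ∀ ω z, (z = u ∨ z = v) → stp G ℓ D (c ω) f z = none := by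
        intro ω z hz
        cases hs : stp G ℓ D (c ω) f z with
        | none => rfl
        | some y =>
          have g1 := (hI ω).dist z y hs
          have g2 := hν.le z y ((hI ω).mem z y hs)
          have g3 : 4 * D < A z := by
            rcases hz with rfl | rfl
            · exact hm.trans_le (min_le_left _ _)
            · exact hm.trans_le (min_le_right _ _)
          have g4 : A z ≤ pathDist G ℓ z y := g2
          linarith
      have h8 := avg2 (fun ω => ∑ i, w ω i * pathDist G ℓ (π ω i u) (π ω i v)) ∅ ∅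
        (B2 b (2 * D) (max (A u) (A v)) (ℓ s(u, v))) 0 0 (by
        intro ω
        simp only [Set.mem_empty_iff_false, if_false, add_zero]
        exact h7 ω u v huv (hnone ω u (Or.inl rfl)) (hnone ω v (Or.inr rfl)) hlu hlv)
      simp only [Set.ncard_empty, Nat.cast_zero, zero_div, zero_mul, add_zero] at h8
      exact h8.trans (B2_mono hb hD hAm hl)
    · have hm' := not_lt.1 hm
      have hlm : ℓ s(u, v) ≤ min (A u) (A v) := le_min hlu hlv
      have hmax : max (A u) (A v) ≤ min (A u) (A v) + ℓ s(u, v) := by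
        rcases le_total (A u) (A v) with g | g
        · rw [max_eq_right g, min_eq_left g]
          have := (abs_le.1 hluv).1
          linarith
        · rw [max_eq_left g, min_eq_right g]
          have := (abs_le.1 hluv).2
          linarith
      have h8 := avg2 (fun ω => ∑ i, w ω i * pathDist G ℓ (π ω i u) (π ω i v))
        {ω | c ω u ≠ c ω v} {ω | stp G ℓ D (c ω) f u = none} 0
        (4 * D + ℓ s(u, v) + B1 b (2 * D) (max (A u) (A v)))
        (B2 b (2 * D) (max (A u) (A v)) (ℓ s(u, v))) (by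
        intro ω
        have hpos : 0 ≤ 4 * D + ℓ s(u, v) + B1 b (2 * D) (max (A u) (A v)) := by linarith
        simp only [Set.mem_setOf_eq, zero_add]
        have hsame : c ω u = c ω v → stp G ℓ D (c ω) f v = stp G ℓ D (c ω) f u := fun h =>
          stp_adj huv hu hv h.symm
        have q1 : ∀ z, (z = u ∨ z = v) → stp G ℓ D (c ω) f z = none →
            ∑ i, w ω i * pathDist G ℓ z (π ω i z) ≤ B1 b (2 * D) (max (A u) (A v)) := by
          intro z hz hs
          refine (h6 ω z hs).trans (B1_mono hb ?_)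
          rcases hz with rfl | rfl
          · exact le_max_left _ _
          · exact le_max_right _ _
        have hB1' : 16 * D ≤ B1 b (2 * D) (max (A u) (A v)) := by
          have := B1_ge hb (show 0 < 2 * D by linarith) hAm
          linarith
        cases hsu : stp G ℓ D (c ω) f u with
        | none =>
          rw [if_pos rfl]
          cases hsv : stp G ℓ D (c ω) f v with
          | none =>
            have g1 := h7 ω u v huv hsu hsv hlu hlv
            split_ifs
            · linarith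
            · linarith
          | some y =>
            have hne : c ω u ≠ c ω v := fun h => by
              rw [hsame h, hsu] at hsv
              exact absurd hsv (by simp)
            rw [if_pos hne]
            have g1 := htri ω
            have g2 := hdv ω v y hsv
            have g3 := q1 u (Or.inl rfl) hsu
            linarith
        | some x =>
          rw [if_neg (show ¬ (some x = (none : Option V)) by simp)]
          by_cases hne : c ω u = c ω v
          · rw [if_neg (by simpa using hne)]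
            have hsv := hsame hne
            rw [hsu] at hsv
            have e : ∀ i, w ω i * pathDist G ℓ (π ω i u) (π ω i v) = 0 := fun i => by
              rw [h4 ω i u x hsu, h4 ω i v x hsv, hd.self, mul_zero]
            rw [Finset.sum_congr rfl fun i _ => e i]
            simp
          · rw [if_pos hne]
            have g1 := htri ω
            have g2 := hdv ω u x hsu
            have g3 : ∑ i, w ω i * pathDist G ℓ v (π ω i v) ≤ B1 b (2 * D) (max (A u) (A v)) := by
              cases hsv : stp G ℓ D (c ω) f v with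
              | none => exact q1 v (Or.inr rfl) hsv
              | some y =>
                have := hdv ω v y hsv
                linarith
            linarith)
      rw [zero_add] at h8
      refine h8.trans (num2 hb hD hAm hl (by linarith) (by linarith) (hp0 _) (hp1 _) ?_ (hp0 _) ?_)
      · exact (hbad u).trans (mul_le_mul_of_nonneg_left (le_max_left _ _) (by linarith))
      · have g1 := hc2 u v (hX u hu) (hX v hv) huv
        rw [div_mul_eq_mul_div, div_le_iff₀ hN]
        have g2 : ({ω | c ω u ≠ c ω v}.ncard : ℝ) * D ≤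
            b * ℓ s(u, v) / D * Fintype.card Ω * D := mul_le_mul_of_nonneg_right g1 hD.le
        refine g2.trans (le_of_eq ?_)
        field_simp

theorem fam_all {V : Type} [Finite V] {G : SimpleGraph V} {ℓ : Sym2 V → ℝ} {X : Set V}
    {b M : ℝ} {ν : V → V} (hc : G.Connected)
    (hℓ : ∀ e ∈ G.edgeSet, 0 < ℓ e) (hν : Near G ℓ X ν) (hb : 1 ≤ b)
    (hM : ∀ u v, pathDist G ℓ u v ≤ M) (hM' : ∀ u v, G.Adj u v → ℓ s(u, v) ≤ M)
    (hcut : ∀ D, 0 < D → Cut G ℓ X b D) (k : ℕ) : ∀ D, 0 < D → M ≤ 2 ^ k * D →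
    ∀ f, Inv G ℓ X D f → Fam G ℓ X (fun v => pathDist G ℓ v (ν v)) b D f := by
  induction k with
  | zero =>
    intro D hD hMD f hf
    rw [pow_zero, one_mul] at hMD
    exact fam_base hc hℓ hν hb hD (fun u v => (hM u v).trans hMD)
      (fun u v h => (hM' u v h).trans hMD) hf
  | succ k ih =>
    intro D hD hMD f hf
    refine fam_step hc hℓ hν hb hD (hcut D hD) (fun f' hf' => ?_) hf
    exact ih (2 * D) (by linarith) (by rw [pow_succ] at hMD; linarith) f' hf'

open Classical in
/-- random retractions with connected fibres -/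
theorem retr {V : Type} [Finite V] {G : SimpleGraph V} {ℓ : Sym2 V → ℝ} {X : Set V} {b : ℝ}
    (hc : G.Connected) (hℓ : ∀ e ∈ G.edgeSet, 0 < ℓ e) (hX : X.Nonempty) (hb : 1 ≤ b)
    (hcut : ∀ D, 0 < D → Cut G ℓ X b D) :
    ∃ (ι : Type) (_ : Fintype ι) (w : ι → ℝ) (π : ι → V → V), (∀ i, 0 ≤ w i) ∧ ∑ i, w i = 1 ∧
      (∀ i v, π i v ∈ X) ∧ (∀ i, ∀ x ∈ X, π i x = x) ∧
      (∀ i v, ∃ q : G.Walk v (π i v), ∀ z ∈ q.support, π i z = π i v) ∧
      ∀ u v, G.Adj u v →
        ∑ i, w i * pathDist G ℓ (π i u) (π i v) ≤ 2096 * b ^ 2 * ℓ s(u, v) := by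
  have hd := pathDist_isMet hc hℓ
  obtain ⟨ν, hν⟩ := exists_near hc hℓ hX
  have := Fintype.ofFinite V
  obtain ⟨m, hm0, hm⟩ : ∃ m : ℝ, 0 < m ∧ ∀ u v, G.Adj u v → m ≤ ℓ s(u, v) := by
    have hVne : Nonempty V := hc.nonempty
    obtain ⟨p, hp⟩ := Finite.exists_min
      (fun p : V × V => if G.Adj p.1 p.2 then ℓ s(p.1, p.2) else 1)
    refine ⟨if G.Adj p.1 p.2 then ℓ s(p.1, p.2) else 1, ?_, ?_⟩
    · split_ifs with h
      · exact hℓ _ h
      · norm_num
    · intro u v huv
      have h1 := hp (u, v)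
      simp only [huv, if_true] at h1
      exact h1
  obtain ⟨M, hM⟩ : ∃ M : ℝ, ∀ u v, pathDist G ℓ u v ≤ M ∧ (G.Adj u v → ℓ s(u, v) ≤ M) := by
    have hVne : Nonempty V := hc.nonempty
    obtain ⟨p, hp⟩ := Finite.exists_max
      (fun p : V × V => max (pathDist G ℓ p.1 p.2) (ℓ s(p.1, p.2)))
    exact ⟨_, fun u v => ⟨(le_max_left _ _).trans (hp (u, v)),
      fun _ => (le_max_right _ _).trans (hp (u, v))⟩⟩
  obtain ⟨k, hk⟩ := pow_unbounded_of_one_lt (M / m) (one_lt_two (α := ℝ))
  have hMk : M ≤ 2 ^ k * m := by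
    rw [← div_le_iff₀ hm0]; exact hk.le
  have hI : Inv G ℓ X m (fun v => if v ∈ X then some v else none) := by
    constructor
    · intro x hx
      simp [hx]
    · intro v y hy
      by_cases hv : v ∈ X
      · simp only [hv, if_true, Option.some.injEq] at hy
        rw [← hy]; exact hv
      · simp [hv] at hy
    · intro v y hy
      by_cases hv : v ∈ X
      · simp only [hv, if_true, Option.some.injEq] at hy
        subst hy
        refine ⟨SimpleGraph.Walk.nil, fun z hz => ?_⟩
        rw [SimpleGraph.Walk.support_nil, List.mem_singleton] at hz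
        rw [hz]
        simp [hv]
      · simp [hv] at hy
    · intro v y hy
      by_cases hv : v ∈ X
      · simp only [hv, if_true, Option.some.injEq] at hy
        subst hy
        rw [hd.self]; linarith
      · simp [hv] at hy
  obtain ⟨ι, hι, w, π, h1, h2, h3, h4, h5, h6, h7⟩ := fam_all hc hℓ hν hb (fun u v => (hM u v).1)
    (fun u v => (hM u v).2) hcut k m hm0 hMk _ hI
  have hX' : ∀ i, ∀ x ∈ X, π i x = x := fun i x hx => h4 i x x (by simp [hx])
  refine ⟨ι, hι, w, π, h1, h2, h3, hX', h5, ?_⟩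
  intro u v huv
  have hl := (hℓ _ ((SimpleGraph.mem_edgeSet G).2 huv))
  have hml := hm u v huv
  have hbl : ℓ s(u, v) ≤ b * ℓ s(u, v) := by nlinarith
  have hbl2 : b * ℓ s(u, v) ≤ b ^ 2 * ℓ s(u, v) := by nlinarith
  set A : V → ℝ := fun v => pathDist G ℓ v (ν v) with hAdef
  have hA : ∀ v, 0 ≤ A v := fun v => pathDist_nonneg hℓ _ _
  have hAX : ∀ x ∈ X, A x = 0 := fun x hx => by
    show pathDist G ℓ x (ν x) = 0
    rw [hν.self x hx, hd.self]
  have g1 : A u ≤ A v + ℓ s(u, v) := by
    have g1 := hν.lip hc hℓ u v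
    have g3 := pathDist_adj hℓ huv
    show pathDist G ℓ u (ν u) ≤ pathDist G ℓ v (ν v) + ℓ s(u, v)
    linarith
  have g2 : A v ≤ A u + ℓ s(u, v) := by
    have g1 := hν.lip hc hℓ v u
    have g3 := pathDist_adj hℓ huv
    rw [hd.symm v u] at g1
    show pathDist G ℓ v (ν v) ≤ pathDist G ℓ u (ν u) + ℓ s(u, v)
    linarith
  by_cases hlong : ℓ s(u, v) ≤ A u ∧ ℓ s(u, v) ≤ A v
  · have hu : u ∉ X := fun h => by
      have := hlong.1
      rw [hAX u h] at this
      linarith
    have hv : v ∉ X := fun h => by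
      have := hlong.2
      rw [hAX v h] at this
      linarith
    refine (h7 u v huv (by simp [hu]) (by simp [hv]) hlong.1 hlong.2).trans ?_
    unfold B2
    set Am := max (A u) (A v) with hAm
    have q1 : 0 ≤ Am := (hA u).trans (le_max_left _ _)
    have q2 : 0 < max m (Am / 8) := lt_of_lt_of_le hm0 (le_max_left _ _)
    have q3 : 256 * b ^ 2 * Am * ℓ s(u, v) / max m (Am / 8) ≤ 2048 * b ^ 2 * ℓ s(u, v) := by
      rw [div_le_iff₀ q2]
      have q4 : Am ≤ 8 * max m (Am / 8) := by
        have := le_max_right m (Am / 8)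
        linarith
      have q5 : 0 ≤ 256 * b ^ 2 * ℓ s(u, v) := by positivity
      calc 256 * b ^ 2 * Am * ℓ s(u, v) = (256 * b ^ 2 * ℓ s(u, v)) * Am := by ring
        _ ≤ (256 * b ^ 2 * ℓ s(u, v)) * (8 * max m (Am / 8)) := mul_le_mul_of_nonneg_left q4 q5
        _ = _ := by ring
    linarith
  · have hs : ∀ z, A z ≤ 2 * ℓ s(u, v) →
        ∑ i, w i * pathDist G ℓ z (π i z) ≤ 128 * (b * ℓ s(u, v)) := by
      intro z hz
      by_cases hzX : z ∈ X
      · have e : ∀ i, w i * pathDist G ℓ z (π i z) = 0 := fun i => by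
          rw [hX' i z hzX, hd.self, mul_zero]
        rw [Finset.sum_congr rfl fun i _ => e i, Finset.sum_const_zero]
        positivity
      · refine (h6 z (by simp [hzX])).trans ?_
        have q1 : b * A z ≤ 2 * (b * ℓ s(u, v)) := by nlinarith
        have q2 : max m (4 * (b * A z)) ≤ 8 * (b * ℓ s(u, v)) := max_le (by linarith) (by linarith)
        show 8 * max m (4 * (b * A z)) + 32 * (b * A z) ≤ 128 * (b * ℓ s(u, v))
        linarith
    have hle : A u ≤ 2 * ℓ s(u, v) ∧ A v ≤ 2 * ℓ s(u, v) := by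
      by_cases h : ℓ s(u, v) ≤ A u
      · have h' : A v < ℓ s(u, v) := not_le.1 fun h' => hlong ⟨h, h'⟩
        constructor <;> linarith
      · have h' := not_le.1 h
        constructor <;> linarith
    have q1 := hs u hle.1
    have q2 := hs v hle.2
    have q3 : ∑ i, w i * pathDist G ℓ (π i u) (π i v) ≤
        ∑ i, w i * pathDist G ℓ u (π i u) + ℓ s(u, v) + ∑ i, w i * pathDist G ℓ v (π i v) := by
      have e : ℓ s(u, v) = ∑ i, w i * ℓ s(u, v) := by
        rw [← Finset.sum_mul, h2, one_mul]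
      rw [e, ← Finset.sum_add_distrib, ← Finset.sum_add_distrib]
      refine Finset.sum_le_sum fun i _ => ?_
      have g1 := hd.tri (π i u) u (π i v)
      have g2 := hd.tri u v (π i v)
      have g3 := pathDist_adj hℓ huv
      rw [hd.symm (π i u) u] at g1
      have g4 := h1 i
      nlinarith
    linarith

end Vale.Agent.P235.ST.H767
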