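import Vale.Agent.P235.ST.H767.Retr2

/-!
P235-M (helper767).  Random retractions with connected fibres, from the row of cuts (helper130).
-/

set_option autoImplicit false
set_option linter.all false

namespace Vale.Agent.P235.ST.H767

open Finset Vale.Agent.P235

/-- row V0 of helper130 -/
def RowCuts : Prop :=
  ∀ (V : Type) [Finite V] (G : SimpleGraph V) (ℓ : Sym2 V → ℝ), G.Connected →
    (∀ e ∈ G.edgeSet, 0 < ℓ e) → ∀ X : Set V, X.Nonempty →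
    (∀ u ∉ X, ∃ σ : Equiv.Perm (G.induce (compSet G X u)).Dart,
      PlaneMap (G.induce (compSet G X u)) σ) →
    ∀ Δ ε : ℝ, 0 < Δ → 0 < ε → ∃ (Ω : Type) (_ : Fintype Ω) (_ : Nonempty Ω) (c : Ω → V → V),
      (∀ ω u v, u ∉ X → v ∉ X → ReachOff G X u v → c ω u = c ω v → pathDist G ℓ u v ≤ Δ) ∧
      ∀ u v, u ∉ X → v ∉ X → G.Adj u v →
        (({ω | c ω u ≠ c ω v}.ncard : ℕ) : ℝ) ≤ (156 * ℓ s(u, v) / Δ + ε) * Fintype.card Ω

/-- the cuts of all scales, for one `G`, `ℓ`, `X`, suffice -/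
theorem conRetr_of {V : Type} [Finite V] {G : SimpleGraph V} {ℓ : Sym2 V → ℝ} {X : Set V}
    (hc : G.Connected) (hℓ : ∀ e ∈ G.edgeSet, 0 < ℓ e) (hX : X.Nonempty)
    (h : ∀ Δ ε : ℝ, 0 < Δ → 0 < ε → ∃ (Ω : Type) (_ : Fintype Ω) (_ : Nonempty Ω)
      (c : Ω → V → V),
      (∀ ω u v, u ∉ X → v ∉ X → ReachOff G X u v → c ω u = c ω v → pathDist G ℓ u v ≤ Δ) ∧
      ∀ u v, u ∉ X → v ∉ X → G.Adj u v →
        (({ω | c ω u ≠ c ω v}.ncard : ℕ) : ℝ) ≤ (156 * ℓ s(u, v) / Δ + ε) * Fintype.card Ω) :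
    ∃ (ι : Type) (_ : Fintype ι) (w : ι → ℝ) (π : ι → V → V), (∀ i, 0 ≤ w i) ∧ ∑ i, w i = 1 ∧
      (∀ i v, π i v ∈ X) ∧ (∀ i, ∀ x ∈ X, π i x = x) ∧
      (∀ i v, ∃ q : G.Walk v (π i v), ∀ z ∈ q.support, π i z = π i v) ∧
      ∀ u v, G.Adj u v →
        ∑ i, w i * pathDist G ℓ (π i u) (π i v) ≤ 2096 * 157 ^ 2 * ℓ s(u, v) := by
  classical
  obtain ⟨m, hm0, hm⟩ : ∃ m : ℝ, 0 < m ∧ ∀ u v, G.Adj u v → m ≤ ℓ s(u, v) := by
    have hVne : Nonempty V := hc.nonempty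
    obtain ⟨p, hp⟩ := Finite.exists_min
      (fun p : V × V => if G.Adj p.1 p.2 then ℓ s(p.1, p.2) else 1)
    refine ⟨if G.Adj p.1 p.2 then ℓ s(p.1, p.2) else 1, ?_, ?_⟩
    · split_ifs with h
      · exact hℓ _ h
      · norm_num
    · intro u v huv
      have h1 := hp (u, v)
      simp only [huv, if_true] at h1
      exact h1
  refine retr hc hℓ hX (by norm_num) fun D hD => ?_
  obtain ⟨Ω, hΩ, hΩn, c, h1, h2⟩ := h D (m / D) hD (by positivity)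
  refine ⟨Ω, hΩ, hΩn, c, h1, fun u v hu hv huv => ?_⟩
  refine (h2 u v hu hv huv).trans ?_
  refine mul_le_mul_of_nonneg_right ?_ (Nat.cast_nonneg _)
  have h3 : m / D ≤ ℓ s(u, v) / D := div_le_div_of_nonneg_right (hm u v huv) hD.le
  have e : 157 * ℓ s(u, v) / D = 156 * ℓ s(u, v) / D + ℓ s(u, v) / D := by ring
  rw [e]
  linarith

theorem conRetr (h0 : RowCuts) : ∃ C : ℝ, 1 ≤ C ∧ ∀ (V : Type) [Finite V] (G : SimpleGraph V)
    (ℓ : Sym2 V → ℝ), G.Connected → (∀ e ∈ G.edgeSet, 0 < ℓ e) → ∀ X : Set V, X.Nonempty →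
    (∀ u ∉ X, ∃ σ : Equiv.Perm (G.induce (compSet G X u)).Dart,
      PlaneMap (G.induce (compSet G X u)) σ) →
    ∃ (ι : Type) (_ : Fintype ι) (w : ι → ℝ) (π : ι → V → V), (∀ i, 0 ≤ w i) ∧ ∑ i, w i = 1 ∧
      (∀ i v, π i v ∈ X) ∧ (∀ i, ∀ x ∈ X, π i x = x) ∧
      (∀ i v, ∃ q : G.Walk v (π i v), ∀ z ∈ q.support, π i z = π i v) ∧
      ∀ u v, G.Adj u v → ∑ i, w i * pathDist G ℓ (π i u) (π i v) ≤ C * ℓ s(u, v) :=
  ⟨2096 * 157 ^ 2, by norm_num, fun V _ G ℓ hc hℓ X hX hP =>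
    conRetr_of hc hℓ hX (h0 V G ℓ hc hℓ X hX hP)⟩

end Vale.Agent.P235.ST.H767
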